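import Vale.Agent.P287Q.Us.Defs
import Vale.Agent.P287Q.Hb.Defs
import Vale.Agent.P287Q.Int.Defs
import Vale.Agent.P287Q.G.Gen.Num

/-!
# P287: cohomology of varieties, presentations, the algebra of two-point operators
-/

set_option linter.unusedSectionVars false

namespace Vale.Agent.P287Q

open Set Function Topology Filter MvPolynomial P291Z P269 P269.Tq

namespace Var

variable {n m : ℕ} (V : Var n)

/-- The space. -/
abbrev X : Type := Spc V.π V.A

/-- The point given by a point of the cone. -/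
noncomputable abbrev pt : V.A → V.X := Quo.mk (scl V.π)

/-- The integral. -/
noncomputable def int : H V.X →ₗ[ℂ] ℂ := Loc.intg (fnd (scl V.π) V.A)

/-- The classes of type `(p, q)`. -/
noncomputable abbrev Hg (p q : ℕ) : Submodule ℂ (H V.X) := Hb.HN V.A V.pt p q

/-- The classes of level zero. -/
noncomputable def pp : Submodule ℂ (H V.X) := ⨆ p, V.Hg p p

/-- The class `c₁(O(χ))`. -/
noncomputable def lc (χ : V.R → ℤ) : H V.X := lcq (scl V.π) V.A fun t => ∏ r, t r ^ χ r

end Var

namespace Ext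

variable {n m l : ℕ} {U : Var l} {V : Var n} {W : Var m} (f : Ext V W)

theorem eqv : Eqv (scl V.π) (scl W.π) V.A W.A fun y => y ∘ f.iJ :=
  ⟨f.map, (continuous_pi fun j => continuous_apply (f.iJ j)).continuousOn, fun a ha _ _ =>
    ⟨a ∘ f.iR, Pi.isUnit_iff.2 fun r => Pi.isUnit_iff.1 ha _,
      funext fun j => by simp only [scl, comp_apply, f.blk]⟩⟩

/-- The map of spaces. -/
noncomputable def q : C(V.X, W.X) := f.eqv.qm

/-- The pull-back of classes. -/
noncomputable def pb : H W.X →ₐ[ℂ] H V.X := H.mapA f.q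

theorem pb_comp (g : Ext U V) (c : H W.X) : (g.comp f).pb c = g.pb (f.pb c) :=
  (g.eqv.map_map f.eqv c).symm

/-- The pull-back of `H^{3,1}`. -/
noncomputable def im : Submodule ℂ (H V.X) := (W.Hg 3 1).map f.pb.toLinearMap

/-- The classes orthogonal to all pull-backs. -/
def Ort (y : H V.X) : Prop := ∀ x, V.int (y * f.pb x) = 0

end Ext

/-- `Φ` is a holomorphic section of the projection `z ↦ z.2 ∘ ι` from the invariant set `Z` to the
cone of `V`; it is equivariant along `t ↦ t ^ M` and meets every orbit. -/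
structure Tors {n : ℕ} (V : Var n) {R J : Type} [Fintype R] [DecidableEq R] [Fintype J]
    (F : Wt Empty Empty R J) (Z : Set ((Empty → ℂ) × (J → ℂ))) (ι : V.J → J) (ρ : V.R → R)
    (M : R → V.R → ℤ) (Φ : (V.J → ℂ) → J → ℂ) : Prop where
  inj : Injective ι
  inj' : Injective ρ
  w : ∀ j, F.w (ι j) = Pi.single (ρ (V.π j)) 1
  maps : ∀ z ∈ Z, z.2 ∘ ι ∈ V.A
  M_ρ : ∀ r, M (ρ r) = Pi.single r 1
  mem : ∀ y ∈ V.A, (0, Φ y) ∈ Z
  sec : ∀ y ∈ V.A, Φ y ∘ ι = y
  hol : ∀ y ∈ V.A, Holo.HolOn V.A Φ y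
  eqv : ∀ t, IsUnit t → ∀ y ∈ V.A,
    (0, Φ (scl V.π t y)) = F.actT (1, fun r => ∏ s, t s ^ M r s) (0, Φ y)
  orb : ∀ z ∈ Z, ∃ t, IsUnit t ∧ z = F.actT (1, t) (0, Φ (z.2 ∘ ι))

/-- A presentation of `V` as a target of Gromov-Witten theory. -/
structure Prs {n : ℕ} (V : Var n) where
  /-- the torus -/
  R : Type
  /-- the fields -/
  J : Type
  /-- the equations -/
  K : Type
  [fR : Fintype R]
  [dR : DecidableEq R]
  [fJ : Fintype J]
  [fK : Fintype K]
  /-- the target -/
  F : Fam Empty Empty R J K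
  /-- the stabilising exponent -/
  k : ℕ
  /-- the weight of the determinant of the tangent spaces of the cone -/
  γ : R → ℤ
  /-- the fields of `V` -/
  ι : V.J → J
  /-- the blocks of `V` -/
  ρ : V.R → R
  /-- the line bundles of the target in terms of those of `V` -/
  M : R → V.R → ℤ
  /-- the section -/
  Φ : (V.J → ℂ) → J → ℂ
  nice : F.Nice 0
  reg : F.Reg ⟨n + Fintype.card R, γ⟩
  big : F.Big k
  B : F.B = univ
  abs : F.Abs
  tors : Tors V F.toWt F.cone ι ρ M Φ

attribute [instance] Prs.fR Prs.dR Prs.fJ Prs.fK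

namespace Prs

variable {n : ℕ} {V : Var n} (P : Prs V)

theorem eqv : Eqv P.F.actT (scl V.π) P.F.cone V.A fun z => z.2 ∘ P.ι :=
  ⟨P.tors.maps,
    (continuous_pi fun j => (continuous_apply (P.ι j)).comp continuous_snd).continuousOn,
    fun a ha _ _ => ⟨a.2 ∘ P.ρ, Pi.isUnit_iff.2 fun _ => Pi.isUnit_iff.1 (Prod.isUnit_iff.1 ha).2 _,
      funext fun j => by
        simp only [scl, comp_apply, Wt.actT, P.tors.w, Finset.univ_eq_empty, Finset.prod_empty,
          one_mul]
        rw [Finset.prod_eq_single (P.ρ (V.π j)) (fun r _ h => by simp [h]) (by simp)]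
        simp⟩⟩

/-- The map from the target to `V`. -/
noncomputable def q : C(P.F.X P.F.cone, V.X) := P.eqv.qm

/-- The classes on the target. -/
noncomputable def pb : H V.X →ₐ[ℂ] H (P.F.X P.F.cone) := H.mapA P.q

/-- The degrees of the line bundles of the target. -/
def up (d : V.R → ℤ) : P.R → ℤ := fun r => ∑ s, P.M r s * d s

/-- The connected invariants of genus zero; `(a, c)` is the insertion `ψ^a ev^* c`. -/
noncomputable def gw' (d : P.R → ℤ) (l : List (ℕ × H V.X)) : ℂ :=
  P.F.cor P.k P.F.exC 0 P.F.cone P.F.cone d (-1) (l.map (Prod.map id P.pb)) [] []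

/-- The same in terms of the degrees of the line bundles of `V`. -/
noncomputable def gw (d : V.R → ℤ) (l : List (ℕ × H V.X)) : ℂ := P.gw' (P.up d) l

/-- `T` is the two-point operator on `H^{3,1}` of degree `d` with further insertions `l`. -/
def IsOp (d : V.R → ℤ) (l : List (ℕ × H V.X)) (T : Module.End ℂ (V.Hg 3 1)) : Prop :=
  ∀ x : V.Hg 3 1, ∀ y ∈ V.Hg 1 3, V.int ((T x).1 * y) = P.gw d ((0, x.1) :: (0, y) :: l)

/-- The two-point operators with descendant insertions of level zero. -/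
def ops : Set (Module.End ℂ (V.Hg 3 1)) := {T | ∃ d l, (∀ x ∈ l, x.2 ∈ V.pp) ∧ P.IsOp d l T}

end Prs

/-- **The algebra of the two-point operators.** -/
noncomputable def Var.alg {n : ℕ} (V : Var n) : Subalgebra ℂ (Module.End ℂ (V.Hg 3 1)) :=
  Algebra.adjoin ℂ {T | ∃ P : Prs V, T ∈ P.ops}

/-- No holomorphic two-forms, and the canonical bundle is a combination of the line bundles of the
blocks. -/
structure Var.Ok {n : ℕ} (V : Var n) : Prop where
  h20 : V.Hg 2 0 = ⊥
  prs : Nonempty (Prs V)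

/-- The subspace `U` comes from the holomorphic two-forms of a surface. -/
def Var.Sfc (W : Var 4) (U : Submodule ℂ (H W.X)) : Prop :=
  ∃ (S : Var 2) (φ : H S.X →ₗ[ℂ] H W.X), (∀ y ∈ Zc.Lk S.X 2, φ y ∈ Zc.Lam W.X) ∧
    (∀ x y, H.IsDeg 2 x → H.IsDeg 2 y → W.int (φ x * φ y) = -S.int (x * y)) ∧
    U = (S.Hg 2 0).map φ

end Vale.Agent.P287Q
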