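import Vale.Agent.P269.Pub.Top

/-!
# Rational cubic fourfolds: the definitions of the statement

Cohomology is Alexander-Spanier cohomology, in the vocabulary of the imported file: `Zc a` says that
`a` is a cocycle, `Cohom univ a b` that `a` and `b` have the same class in `H^*(Y, ℂ)`, `cup` is the
cup product, and the fundamental class `β` is the functional `a ↦ ∫_Y a`.
-/

noncomputable section

namespace Vale.Agent.P287Q.Pub

open Vale.Agent.P269.Pub Set Topology Filter MvPolynomial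

/-- The form `F` is smooth: its first derivatives have no common zero but the origin. -/
def IsSmoothForm (F : MvPolynomial (Fin 6) ℂ) : Prop :=
  ∀ z : Fin 6 → ℂ, (∀ i, eval z (pderiv i F) = 0) → z = 0

/-- The hypersurface `F = 0` is rational: its function field, in the chart `x₀ = 1`, is the field
of rational functions in four variables over `ℂ`. -/
def IsRationalForm (F : MvPolynomial (Fin 6) ℂ) : Prop :=
  Nonempty (FractionRing (MvPolynomial (Fin 5) ℂ ⧸
      Ideal.span {aeval (Fin.cons 1 X : Fin 6 → MvPolynomial (Fin 5) ℂ) F}) ≃ₐ[ℂ]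
    FractionRing (MvPolynomial (Fin 4) ℂ))

/-- Admissible discriminants. -/
def Admissible (d : ℤ) : Prop :=
  6 < d ∧ (d % 6 = 0 ∨ d % 6 = 2) ∧ ¬4 ∣ d ∧ ¬9 ∣ d ∧
    ∀ p : ℕ, p.Prime → Odd p → p % 3 = 2 → ¬(p : ℤ) ∣ d

/-- The cocycle `a` represents a class in `H^{p,q}`: it has degree `k = p + q`, it is smooth near the
diagonal and its differential form `∑ sign σ ∂_{v σ 1} ⋯ ∂_{v σ k} a(x, ·, …, ·)` (the de Rham
representative, pulled back by `π` to the cone `S` with tangent spaces `T x`) has type `(p, q)`. -/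
def IsHodge {E Y : Type} [NormedAddCommGroup E] [NormedSpace ℂ E] (S : Set E) (T : E → Set E)
    (π : S → Y) (p q : ℕ) (a : Co Y) : Prop :=
  IsDeg (p + q : ℕ) a ∧ ∀ x : S, ∃ f : (Fin (p + q + 1) → E) → ℂ,
    let ω := fun v : Fin (p + q) → E => ∑ σ : Equiv.Perm (Fin (p + q)), (Equiv.Perm.sign σ : ℤ) *
      iteratedFDeriv ℝ (p + q) f (fun _ => x) fun i => Pi.single i.succ (v (σ i))
    ContDiff ℝ (⊤ : ℕ∞) f ∧
      (∀ᶠ z : Fin (p + q + 1) → S in 𝓝 fun _ => x,
        f (fun i => z i) = a (List.ofFn fun i => π (z i))) ∧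
      ∀ v (s : ℂ), (∀ i, v i ∈ T x) → ω (fun i => s • v i) = s ^ p * (starRingEnd ℂ s) ^ q * ω v

section

variable {Y : Type} [TopologicalSpace Y]

/-- `a` is a cocycle of degree four with integer values: a representative of a class of
`H⁴(Y, ℤ)`. -/
def IsInt (a : Co Y) : Prop := Zc a ∧ IsDeg 4 a ∧ ∀ l, ∃ n : ℤ, a l = n

/-- `a` represents a class of `H⁴(Y, ℤ) ∩ H^{2,2}(Y)`, where `Hdg` is the set of the cocycles
of type `(2, 2)`. -/
def IsAlg (Hdg : Co Y → Prop) (a : Co Y) : Prop := IsInt a ∧ ∃ c, Zc c ∧ Hdg c ∧ Cohom univ a c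

/-- The class of `x` lies in the lattice generated by the classes of `e 0` and `e 1`. -/
def InSpan (e : Fin 2 → Co Y) (x : Co Y) : Prop :=
  ∃ m : Fin 2 → ℤ, Cohom univ x fun l => ∑ i, m i * e i l

/-- The classes of `e 0`, `e 1` form a basis of a labelling `K` of discriminant `d`: they lie in
`H⁴(Y, ℤ) ∩ H^{2,2}(Y)`, their Gram matrix is positive definite of determinant `d`, the lattice `K`
contains `h²` and is saturated in `H⁴(Y, ℤ)`. -/
def IsLabelling (Hdg : Co Y → Prop) (β : Bm Y) (h : Co Y) (d : ℤ) (e : Fin 2 → Co Y) : Prop :=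
  (∀ i, IsAlg Hdg (e i)) ∧
  (∃ G : Matrix (Fin 2) (Fin 2) ℤ, (∀ i j, β (cup (e i) (e j)) = G i j) ∧ G.PosDef ∧ G.det = d) ∧
  InSpan e (cup h h) ∧
  ∀ x (k : ℤ), IsInt x → k ≠ 0 → InSpan e (fun l => k * x l) → InSpan e x

end

/-- The action of `ℂˣ` on `ℂ⁶`. -/
def scal (t : Unit → ℂ) (x : Fin 6 → ℂ) (j : Fin 6) : ℂ := t () * x j

variable (F : MvPolynomial (Fin 6) ℂ)

/-- The cone over the hypersurface `Y : F = 0` of `ℙ⁵`; the space `Y` is `Quo scal (cone F)`. -/
def cone : Set (Fin 6 → ℂ) := {x | x ≠ 0 ∧ eval x F = 0}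

/-- The cocycles of Hodge type `(2, 2)` on `Y`. -/
def Hdg22 : Co (Quo scal (cone F)) → Prop :=
  IsHodge (cone F) (fun x => {v | ∑ j, v j * eval x (pderiv j F) = 0}) (Quot.mk _) 2 2

/-- The cocycles that represent the hyperplane class `h = c₁(O(1))`; the total space of `O(1)` is
the quotient of `cone F × ℂ` by `t (x, z) = (t x, t z)`. -/
def IsHyp : Co (Quo scal (cone F)) → Prop :=
  IsEuler scal (fun t (z : ℂ) => t () * z) (cone F) (fun _ => univ) fun _ => ∅

/-- `Y` lies in `C_d`: it has a fundamental class and a hyperplane class, and, for all choices of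
these, a labelling of discriminant `d`. -/
def InC (d : ℤ) : Prop :=
  (∃ β h, IsFund scal (cone F) β ∧ IsHyp F h) ∧
    ∀ β h, IsFund scal (cone F) β → IsHyp F h → ∃ e, IsLabelling (Hdg22 F) β h d e

/-- The lattice `H⁴(Y, ℤ) ∩ H^{2,2}(Y)` is generated by two classes. -/
def RankTwo : Prop :=
  ∃ e, (∀ i, IsAlg (Hdg22 F) (e i)) ∧ ∀ x, IsAlg (Hdg22 F) x → InSpan e x

end Vale.Agent.P287Q.Pub
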