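import Mathlib

/-!
# Rational cubic fourfolds: the definitions of the statement

Cohomology is Alexander-Spanier cohomology: a cochain of degree `k` is a function of `k + 1` points,
taken modulo the functions that vanish near the diagonal.
-/

noncomputable section

namespace Vale.Agent.P287Q.Stm

open Topology Filter MvPolynomial

/-- The form `F` is smooth: its first derivatives have no common zero but the origin. -/
def IsSmoothForm (F : MvPolynomial (Fin 6) ℂ) : Prop :=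
  ∀ z : Fin 6 → ℂ, (∀ i, eval z (pderiv i F) = 0) → z = 0

/-- The hypersurface `F = 0` is rational: its function field, in the chart `x₀ = 1`, is the field
of rational functions in four variables over `ℂ`. -/
def IsRationalForm (F : MvPolynomial (Fin 6) ℂ) : Prop :=
  Nonempty (FractionRing (MvPolynomial (Fin 5) ℂ ⧸
      Ideal.span {aeval (Fin.cons 1 X : Fin 6 → MvPolynomial (Fin 5) ℂ) F}) ≃ₐ[ℂ]
    FractionRing (MvPolynomial (Fin 4) ℂ))

/-- Admissible discriminants. -/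
def Admissible (d : ℤ) : Prop :=
  6 < d ∧ (d % 6 = 0 ∨ d % 6 = 2) ∧ ¬4 ∣ d ∧ ¬9 ∣ d ∧
    ∀ p : ℕ, p.Prime → Odd p → p % 3 = 2 → ¬(p : ℤ) ∣ d

section

variable {Y : Type} {k p q : ℕ}

/-- Cochains of degree `k`. -/
abbrev Co (Y : Type) (k : ℕ) : Type := (Fin (k + 1) → Y) → ℂ

/-- The coboundary. -/
def cob (a : Co Y k) : Co Y (k + 1) := fun y =>
  ∑ i : Fin (k + 2), (-1) ^ (i : ℕ) * a fun j => y (i.succAbove j)

/-- The cup product `a (y₀, …, y_p) * b (y_p, …, y_(p+q))`. -/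
def cup (a : Co Y p) (b : Co Y q) : Co Y (p + q) := fun y =>
  (a fun i => y (i.castLE (Nat.succ_le_succ (Nat.le_add_right p q)))) * b fun j => y (j.natAdd p)

variable [TopologicalSpace Y]

/-- `a` vanishes near the diagonal. -/
def Null (a : Co Y k) : Prop := ∀ x : Y, ∀ᶠ y in 𝓝 fun _ => x, a y = 0

/-- `a` and `b` are cohomologous. -/
def Cohom (a b : Co Y (k + 1)) : Prop := ∃ c, Null (a - b - cob c)

/-- `a` is a cocycle with integer values: it represents a class of `H^k(Y, ℤ)`. -/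
def IsInt (a : Co Y k) : Prop := Null (cob a) ∧ ∀ y, ∃ n : ℤ, a y = n

/-- `β` induces a linear form on `H⁸(Y, ℂ)` with integer values on `H⁸(Y, ℤ)`, `h` represents a class
of `H²(Y, ℤ)`, and `β (h⁴) = 3`. On a cubic fourfold this holds for the integral `β = ∫_Y` and the
hyperplane class `h = c₁(O(1))` (and only for `∫_Y` and `± c₁(O(1))`). -/
def IsPol (β : Co Y 8 →ₗ[ℂ] ℂ) (h : Co Y 2) : Prop :=
  (∀ a, Cohom a 0 → β a = 0) ∧ (∀ a, IsInt a → ∃ n : ℤ, β a = n) ∧ IsInt h ∧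
    β (cup (cup h h) (cup h h)) = 3

/-- The class of `x` lies in the lattice generated by the classes of `e 0` and `e 1`. -/
def InSpan (e : Fin 2 → Co Y 4) (x : Co Y 4) : Prop := ∃ m : Fin 2 → ℤ, Cohom x (∑ i, m i • e i)

end

variable (F : MvPolynomial (Fin 6) ℂ)

/-- The cone over the hypersurface `F = 0`. -/
def cone : Set (Fin 6 → ℂ) := {x | x ≠ 0 ∧ eval x F = 0}

/-- The hypersurface `Y : F = 0` of `ℙ⁵`, with the quotient topology. -/
abbrev Var : Type := Quot fun x y : cone F => ∃ t : ℂ, y.1 = t • x.1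

/-- The value at `x` of the differential form `∑ sign σ ∂_{v σ 1} ⋯ ∂_{v σ 4} f(x, ·, ·, ·, ·)` of a
function `f` of five points. -/
def form (f : (Fin 5 → Fin 6 → ℂ) → ℂ) (x : Fin 6 → ℂ) (v : Fin 4 → Fin 6 → ℂ) : ℂ :=
  ∑ σ : Equiv.Perm (Fin 4), (Equiv.Perm.sign σ : ℤ) *
    iteratedFDeriv ℝ 4 f (fun _ => x) fun i => Pi.single i.succ (v (σ i))

/-- `c` is a cocycle that is smooth near the diagonal, and its differential form (the de Rham
representative of the class, pulled back to the cone) has type `(2, 2)` on the tangent spaces of the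
cone: the class of `c` lies in `H^{2,2}(Y)`. -/
def Is22 (c : Co (Var F) 4) : Prop :=
  Null (cob c) ∧ ∀ x : cone F, ∃ f : (Fin 5 → Fin 6 → ℂ) → ℂ, ContDiff ℝ (⊤ : ℕ∞) f ∧
    (∀ᶠ z : Fin 5 → cone F in 𝓝 fun _ => x, (c fun i => Quot.mk _ (z i)) = f fun i => z i) ∧
    ∀ (s : ℂ) (v : Fin 4 → Fin 6 → ℂ), (∀ i, ∑ j, v i j * eval x (pderiv j F) = 0) →
      form f x (s • v) = s ^ 2 * starRingEnd ℂ s ^ 2 * form f x v

/-- `a` represents a class of `H⁴(Y, ℤ) ∩ H^{2,2}(Y)`. -/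
def IsAlg (a : Co (Var F) 4) : Prop := IsInt a ∧ ∃ c, Is22 F c ∧ Cohom a c

/-- The classes of `e 0`, `e 1` form a basis of a labelling `K` of discriminant `d`: they lie in
`H⁴(Y, ℤ) ∩ H^{2,2}(Y)`, their Gram matrix is positive definite of determinant `d`, the lattice `K`
contains `h²` and is saturated in `H⁴(Y, ℤ)`. -/
def IsLabelling (β : Co (Var F) 8 →ₗ[ℂ] ℂ) (h : Co (Var F) 2) (d : ℤ) (e : Fin 2 → Co (Var F) 4) :
    Prop :=
  (∀ i, IsAlg F (e i)) ∧
  (∃ G : Matrix (Fin 2) (Fin 2) ℤ, (∀ i j, β (cup (e i) (e j)) = G i j) ∧ G.PosDef ∧ G.det = d) ∧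
  InSpan e (cup h h) ∧ ∀ x (n : ℤ), IsInt x → n ≠ 0 → InSpan e (n • x) → InSpan e x

/-- `Y` lies in `C_d`. -/
def InC (d : ℤ) : Prop :=
  (∃ β h, IsPol (Y := Var F) β h) ∧ ∀ β h, IsPol β h → ∃ e, IsLabelling F β h d e

end Vale.Agent.P287Q.Stm
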