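import Vale.Agent.P287Q.Stm

/-!
# Rational cubic fourfolds: Hodge lattices of rank two
-/

namespace Vale.Agent.P287Q.Stm

variable (F : MvPolynomial (Fin 6) ℂ)

/-- The lattice `H⁴(Y, ℤ) ∩ H^{2,2}(Y)` is generated by two classes. -/
def RankTwo : Prop := ∃ e, (∀ i, IsAlg F (e i)) ∧ ∀ x, IsAlg F x → InSpan e x

end Vale.Agent.P287Q.Stm
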